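import Vale.Agent.P092.H584.TX.S
import Vale.Agent.P092.H515.TauG

/-!
P092 (helper584): port of the last part of helper515's `H515/TauG.lean` to `RC.PicX`: if the powers
of the wall element of the source factor `i` are tight off the target coordinate `j`, the whole
factor `ι_i(SL_n(k))` is tight off `j`, and so is the product of all factors with the same `j`.
-/

set_option linter.all false

open scoped InnerProductSpace ENNReal Pointwise
open Filter Topology ContinuousLinearMap MeasureTheory TopologicalSpace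

namespace Vale.Agent.P092.H584.TX

open Vale.Agent.P092.RC (Cm TRN Moore GG PG YY y0 ct PicX)
open Vale.Agent.P092.SD (Ms)
open Vale.Agent.P092.SN (PH nm bw)
open Vale.Agent.P092.H515.Tau

section calcu

variable {E Γ K H : Type} [Group E] [TopologicalSpace E] [Group Γ] [NormedAddCommGroup K]
  [InnerProductSpace ℂ K] [CompleteSpace K] {π : E →* (K →L[ℂ] K)} {lam : Γ →* (K →L[ℂ] K)}
  {W : Set (K →L[ℂ] K)} {Ω : K} {m : Set Γ → (K →L[ℂ] K)} [Group H] [TopologicalSpace H]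
  {κ : Γ →* H} [Countable Γ] [IsTopologicalGroup H] [LocallyCompactSpace H] [T2Space H]
  [SecondCountableTopology H]

theorem tgt_one (hP : PicX π lam W Ω) (hM : Ms lam W Ω m) : Tgt π m Ω κ (1 : Set E) :=
  tgt_finite hP hM κ Set.finite_one

/-- finite products -/
theorem tgt_list (hP : PicX π lam W Ω) (hM : Ms lam W Ω m) :
    ∀ l : List (Set E), (∀ 𝒰 ∈ l, Tgt π m Ω κ 𝒰) → Tgt π m Ω κ l.prod
  | [], _ => tgt_one hP hM
  | 𝒰 :: l, h => by
    rw [List.prod_cons]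
    exact tgt_mul hP hM (h 𝒰 (List.mem_cons_self ..))
      (tgt_list hP hM l fun 𝒱 h𝒱 => h 𝒱 (List.mem_cons_of_mem _ h𝒱))

/-- translates of a tight set on both sides -/
theorem tgt_conj (hP : PicX π lam W Ω) (hM : Ms lam W Ω m) {𝒰 : Set E} (h : Tgt π m Ω κ 𝒰)
    (g g' : E) : Tgt π m Ω κ ({g} * 𝒰 * {g'}) :=
  tgt_mul hP hM (tgt_mul hP hM (tgt_finite hP hM κ (Set.finite_singleton g)) h)
    (tgt_finite hP hM κ (Set.finite_singleton g'))

/-- commuting subgroups -/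
theorem tgt_closure {I : Type} (hP : PicX π lam W Ω) (hM : Ms lam W Ω m) (A : I → Subgroup E)
    (hA : ∀ i j, i ≠ j → ∀ x ∈ A i, ∀ y ∈ A j, Commute x y) (F : Finset I)
    (h : ∀ i ∈ F, Tgt π m Ω κ (A i : Set E)) :
    Tgt π m Ω κ (Subgroup.closure (⋃ i ∈ F, (A i : Set E)) : Set E) := by
  classical
  induction F using Finset.induction_on with
  | empty =>
    refine (tgt_one hP hM).mono ?_
    simp
  | insert a F ha ih =>
    have h1 := tgt_mul hP hM (h a (Finset.mem_insert_self a F))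
      (ih fun i hi => h i (Finset.mem_insert_of_mem hi))
    refine h1.mono ?_
    obtain ⟨C, hC⟩ : ∃ C : Subgroup E, C = Subgroup.closure (⋃ i ∈ F, (A i : Set E)) := ⟨_, rfl⟩
    rw [← hC]
    have hcomm : ∀ x ∈ A a, ∀ y ∈ C, Commute x y := by
      intro x hx y hy
      have h2 : C ≤ Subgroup.centralizer {x} := by
        rw [hC, Subgroup.closure_le]
        intro z hz
        obtain ⟨i, hi, hz⟩ := Set.mem_iUnion₂.mp hz
        have hne : a ≠ i := fun e => ha (e ▸ hi)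
        rw [SetLike.mem_coe, Subgroup.mem_centralizer_singleton_iff]
        exact (hA a i hne x hx z hz).eq.symm
      exact (Subgroup.mem_centralizer_singleton_iff.mp (h2 hy)).symm
    have key : Subgroup.closure (⋃ i ∈ insert a F, (A i : Set E)) ≤
        { carrier := (A a : Set E) * (C : Set E)
          mul_mem' := by
            rintro _ _ ⟨x, hx, y, hy, rfl⟩ ⟨x', hx', y', hy', rfl⟩
            refine ⟨x * x', (A a).mul_mem hx hx', y * y', C.mul_mem hy hy', ?_⟩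
            change x * x' * (y * y') = x * y * (x' * y')
            have := (hcomm x' hx' y hy).eq
            calc x * x' * (y * y') = x * (x' * y) * y' := by simp only [mul_assoc]
              _ = x * (y * x') * y' := by rw [this]
              _ = _ := by simp only [mul_assoc]
          one_mem' := ⟨1, (A a).one_mem, 1, C.one_mem, one_mul 1⟩
          inv_mem' := by
            rintro _ ⟨x, hx, y, hy, rfl⟩
            refine ⟨x⁻¹, (A a).inv_mem hx, y⁻¹, C.inv_mem hy, ?_⟩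
            change x⁻¹ * y⁻¹ = (x * y)⁻¹
            rw [_root_.mul_inv_rev]
            exact ((hcomm x hx y hy).inv_inv).eq } := by
      rw [Subgroup.closure_le]
      intro z hz
      obtain ⟨i, hi, hzi⟩ := Set.mem_iUnion₂.mp hz
      rcases Finset.mem_insert.mp hi with rfl | hi
      · exact ⟨z, hzi, 1, C.one_mem, mul_one z⟩
      · refine ⟨1, (A a).one_mem, z, ?_, one_mul z⟩
        rw [hC]
        exact Subgroup.subset_closure (Set.mem_biUnion (Finset.mem_coe.mpr hi) hzi)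
    exact fun u hu => key hu

end calcu

/-! ### The whole factor -/

section fac

variable {E Γ K H : Type} [Group E] [TopologicalSpace E] [Group Γ] [NormedAddCommGroup K]
  [InnerProductSpace ℂ K] [CompleteSpace K] {π : E →* (K →L[ℂ] K)} {lam : Γ →* (K →L[ℂ] K)}
  {W : Set (K →L[ℂ] K)} {Ω : K} {m : Set Γ → (K →L[ℂ] K)}

theorem tight_range [Group H] [TopologicalSpace H] {κ : Γ →* H} [Countable Γ]
    [IsTopologicalGroup H] [LocallyCompactSpace H] [T2Space H] [SecondCountableTopology H]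
    (hP : PicX π lam W Ω) (hM : Ms lam W Ω m) {k : Type} [NontriviallyNormedField k] {N : ℕ}
    {w : kˣ} (hw : KW N w) {ι : GG k N →* E} (hι : Continuous ι)
    (h : Tgt π m Ω κ (Subgroup.zpowers (ι (bw w)) : Set E)) : Tgt π m Ω κ (Set.range ι) := by
  obtain ⟨s, C, hC, hg⟩ := hw
  obtain ⟨F, hF⟩ : ∃ F : Fin (N + 1) → Set E, ∀ p, F p =
      {ι (s p)} * (Subgroup.zpowers (ι (bw w)) : Set E) * {ι (s p)⁻¹} := ⟨_, fun _ => rfl⟩
  have h1 : Tgt π m Ω κ (List.ofFn F).prod := by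
    refine tgt_list hP hM _ fun 𝒰 h𝒰 => ?_
    obtain ⟨p, rfl⟩ := List.mem_ofFn.mp h𝒰
    rw [hF]
    exact tgt_conj hP hM h _ _
  have h2 : Tgt π m Ω κ (ι '' C) := tgt_of_isCompact hP hM κ (hC.image hι)
  refine (tgt_mul hP hM (tgt_mul hP hM h2 h1) h2).mono ?_
  rintro _ ⟨g, rfl⟩
  obtain ⟨n, c₁, hc₁, c₂, hc₂, e⟩ := hg g
  refine ⟨ι c₁ * ι (List.ofFn fun p => s p * bw w ^ n p * (s p)⁻¹).prod, ⟨ι c₁, ⟨c₁, hc₁, rfl⟩,
    _, ?_, rfl⟩, ι c₂, ⟨c₂, hc₂, rfl⟩, ?_⟩
  · rw [map_list_prod, List.map_ofFn]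
    refine Set.mem_prod_list_ofFn.mpr ⟨fun p => ⟨ι (s p * bw w ^ n p * (s p)⁻¹), ?_⟩, rfl⟩
    rw [hF]
    refine ⟨ι (s p) * ι (bw w) ^ n p, ⟨ι (s p), rfl, ι (bw w) ^ n p, ⟨n p, rfl⟩, rfl⟩,
      ι (s p)⁻¹, rfl, ?_⟩
    change ι (s p) * ι (bw w) ^ n p * ι (s p)⁻¹ = _
    rw [← map_zpow, ← map_mul, ← map_mul]
  · change ι c₁ * ι (List.ofFn fun p => s p * bw w ^ n p * (s p)⁻¹).prod * ι c₂ = ι g
    rw [← map_mul, ← map_mul, ← e]

variable {J I : Type} [Fintype J] [DecidableEq J] {k : J → Type}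
  [∀ j, NontriviallyNormedField (k j)] [∀ j, ProperSpace (k j)] {N : J → ℕ} [Countable Γ]
  {q : ∀ j, Γ → GG (k j) (N j)} {k' : I → Type} [∀ i, NontriviallyNormedField (k' i)]
  {N' : I → ℕ} {w : ∀ i, (k' i)ˣ} {ι : ∀ i, GG (k' i) (N' i) →* E}

/-- products of sets which are tight off `j` -/
theorem nt_mul (hP : PicX π lam W Ω) (hM : Ms lam W Ω m) (hq : ∀ j, PH (q j)) {j : J}
    {𝒰 𝒱 : Set E} (h : NT π m Ω q j 𝒰) (h' : NT π m Ω q j 𝒱) : NT π m Ω q j (𝒰 * 𝒱) := by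
  haveI : ∀ i : {i // i ≠ j}, T2Space (PS (N i + 1) (k i)) := fun i => ps_t2 _ _ (by omega)
  haveI : ∀ i : {i // i ≠ j}, LocallyCompactSpace (PS (N i + 1) (k i)) := fun i => ps_lc _ _
  haveI : ∀ i : {i // i ≠ j}, SecondCountableTopology (PS (N i + 1) (k i)) := fun i => ps_sc _ _
  exact (tgt_iff hM hq j _).mp
    (tgt_mul hP hM ((tgt_iff hM hq j _).mpr h) ((tgt_iff hM hq j _).mpr h'))

/-- compact sets are tight off `j` -/
theorem nt_compact (hP : PicX π lam W Ω) (hM : Ms lam W Ω m) (hq : ∀ j, PH (q j)) (j : J)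
    {𝒰 : Set E} (h : IsCompact 𝒰) : NT π m Ω q j 𝒰 :=
  (tgt_iff hM hq j _).mp (tgt_of_isCompact hP hM (kc hq j) h)

/-- **The whole factor `i` is tight off the coordinate `τ i`.** -/
theorem tight_fac (hP : PicX π lam W Ω) (hM : Ms lam W Ω m) (hq : ∀ j, PH (q j)) {i : I}
    (hw : KW (N' i) (w i)) (hι : Continuous (ι i)) {j : J}
    (h : ∀ ε : ℝ, 0 < ε → ∃ r : ℝ, ∀ v ∈ Subgroup.zpowers (ι i (bw (w i))),
      ‖m {γ | ∃ i', i' ≠ j ∧ r < nm (q i' γ)} (π v Ω)‖ ≤ ε) :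
    ∀ ε : ℝ, 0 < ε → ∃ r : ℝ, ∀ g : GG (k' i) (N' i),
      ‖m {γ | ∃ i', i' ≠ j ∧ r < nm (q i' γ)} (π (ι i g) Ω)‖ ≤ ε := by
  haveI : ∀ i : {i // i ≠ j}, T2Space (PS (N i + 1) (k i)) := fun i => ps_t2 _ _ (by omega)
  haveI : ∀ i : {i // i ≠ j}, LocallyCompactSpace (PS (N i + 1) (k i)) := fun i => ps_lc _ _
  haveI : ∀ i : {i // i ≠ j}, SecondCountableTopology (PS (N i + 1) (k i)) := fun i => ps_sc _ _
  have h1 : Tgt π m Ω (kc hq j) (Subgroup.zpowers (ι i (bw (w i))) : Set E) :=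
    (tgt_iff hM hq j _).mpr h
  have h2 := (tgt_iff hM hq j _).mp (tight_range hP hM hw hι h1)
  intro ε hε
  obtain ⟨r, hr⟩ := h2 ε hε
  exact ⟨r, fun g => hr _ ⟨g, rfl⟩⟩

/-- **The product of all factors with the same coordinate is tight off this coordinate.** -/
theorem tight_fib [Fintype I] (hP : PicX π lam W Ω) (hM : Ms lam W Ω m) (hq : ∀ j, PH (q j))
    (hw : ∀ i, KW (N' i) (w i)) (hι : ∀ i, Continuous (ι i))
    (hcomm : ∀ i i', i ≠ i' → ∀ g h, Commute (ι i g) (ι i' h)) {τ : I → J}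
    (h : ∀ i, ∀ ε : ℝ, 0 < ε → ∃ r : ℝ, ∀ v ∈ Subgroup.zpowers (ι i (bw (w i))),
      ‖m {γ | ∃ j, j ≠ τ i ∧ r < nm (q j γ)} (π v Ω)‖ ≤ ε) (j : J) :
    ∀ ε : ℝ, 0 < ε → ∃ r : ℝ, ∀ u ∈ Subgroup.closure (⋃ i ∈ {i | τ i = j}, Set.range (ι i)),
      ‖m {γ | ∃ j', j' ≠ j ∧ r < nm (q j' γ)} (π u Ω)‖ ≤ ε := by
  classical
  haveI : ∀ i : {i // i ≠ j}, T2Space (PS (N i + 1) (k i)) := fun i => ps_t2 _ _ (by omega)
  haveI : ∀ i : {i // i ≠ j}, LocallyCompactSpace (PS (N i + 1) (k i)) := fun i => ps_lc _ _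
  haveI : ∀ i : {i // i ≠ j}, SecondCountableTopology (PS (N i + 1) (k i)) := fun i => ps_sc _ _
  have h1 := tgt_closure (κ := kc hq j) hP hM (fun i => (ι i).range)
    (fun i i' hne x hx y hy => by
      obtain ⟨g, rfl⟩ := hx
      obtain ⟨g', rfl⟩ := hy
      exact hcomm i i' hne g g') (Finset.univ.filter fun i => τ i = j) fun i hi => by
        obtain rfl := (Finset.mem_filter.mp hi).2
        rw [MonoidHom.coe_range]
        exact tight_range hP hM (hw i) (hι i) ((tgt_iff hM hq (τ i) _).mpr (h i))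
  have e : (⋃ i ∈ Finset.univ.filter fun i => τ i = j, (((ι i).range : Subgroup E) : Set E)) =
      ⋃ i ∈ {i | τ i = j}, Set.range (ι i) := by
    ext x
    simp
  rw [e] at h1
  exact (tgt_iff hM hq j _).mp h1

end fac

end Vale.Agent.P092.H584.TX
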