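import Vale.Agent.P092.H584.TX.G
import Vale.Agent.P092.H584.TauP
import Vale.Agent.P092.H958.AmpD

/-!
P092, TEAM N (helper584), products, all `t`: block [P-TAU] (T2), (T3) for a picture `RC.PicF` with a
finite family of vectors, through the amplification (one vector, `RC.PicX`).
-/

set_option linter.all false

open scoped InnerProductSpace ENNReal Pointwise
open Filter Topology Matrix ContinuousLinearMap MeasureTheory

namespace Vale.Agent.P092.H584.TX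

open Vale.Agent.P092.H200 Vale.Agent.P092.H761
open Vale.Agent.P092.H538 (ind ind_pos ind_neg ind_nonneg)
open Vale.Agent.P092.H933 (LocK)
open Vale.Agent.P092.RC (GG PG YY PicX PicF ampH ampH_ap ampO ampW ampO_ap sum_ampO)
open Vale.Agent.P092.H261 (PingT)
open Vale.Agent.P092.SN (PH nm bw)
open Vale.Agent.P092.SD (Ms MsF)
open Vale.Agent.P092.H333.Amp
open Vale.Agent.P092.H515.Tau (KW NT)

/-! ### One vector -/

section one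

variable {I : Type} [Fintype I] [DecidableEq I] {k k' : I → Type}
  [∀ i, NontriviallyNormedField (k i)] [∀ i, ProperSpace (k i)]
  [∀ i, NontriviallyNormedField (k' i)] [∀ i, ProperSpace (k' i)] {N : I → ℕ}
  {E : Type} [Group E] [TopologicalSpace E] [IsTopologicalGroup E] [MeasurableSpace E]
  [BorelSpace E]
  {Γ K : Type} [Group Γ] [Countable Γ] [NormedAddCommGroup K] [InnerProductSpace ℂ K]
  [CompleteSpace K] {π : E →* (K →L[ℂ] K)} {lam : Γ →* (K →L[ℂ] K)} {W : Set (K →L[ℂ] K)}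
  {Ω : K} {m : Set Γ → (K →L[ℂ] K)} {mass : E → (Γ → ℝ) → ℝ}

/-- `H584.Tau.tau_out_abs` for `PicX`, for a given `τ`. -/
theorem tau_X (hd : ∀ _ : DecidableEq Γ, ∃ t : ℝ,
      SharpData t mass (fun K : Set E => IsCompact K) (PingT E))
    (hm : ∀ (u : E) (S : Set Γ), mass u (ind fun γ => γ ∈ S) = ‖m S (π u Ω)‖ ^ 2)
    (hP : PicX π lam W Ω) (hM : Ms lam W Ω m)
    (hk' : ∀ j, LocK (k' j)) (hN : ∀ i, 0 < N i) {ι : ∀ i, GG (k i) (N i) →* E}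
    {a : ∀ i, E →* PG (k i) (N i + 1)} (hι : ∀ i, Continuous (ι i)) (ha : ∀ i, Continuous (a i))
    (hcomp : ∀ i g (x : YY (k i) (N i)), a i (ι i g) • x = g • x)
    (hcomm : ∀ i j, i ≠ j → ∀ g h, Commute (ι i g) (ι j h))
    {q : ∀ j, Γ → GG (k' j) (N j)} (hq : ∀ j, PH (q j))
    (disc : ∀ C : ℝ, {γ : Γ | ∀ j, nm (q j γ) ≤ C}.Finite) {w : ∀ i, (k i)ˣ}
    (hw : ∀ i, KW (N i) (w i)) {τ : I → I}
    (h1 : ∀ i (ε : ℝ), 0 < ε → ∃ r : ℝ, ∀ v ∈ Subgroup.zpowers (ι i (bw (w i))),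
      ‖m {γ | ∃ j', j' ≠ τ i ∧ r < nm (q j' γ)} (π v Ω)‖ ≤ ε) :
    Function.Bijective τ ∧ (∀ i, N (τ i) = N i) ∧
      ∀ i (ε : ℝ), 0 < ε → ∃ r : ℝ, ∀ g : GG (k i) (N i),
        ‖m {γ | ∃ j', j' ≠ τ i ∧ r < nm (q j' γ)} (π (ι i g) Ω)‖ ≤ ε := by
  have h2 := fun j => tight_fib hP hM hq hw hι hcomm (τ := τ) h1 j
  obtain ⟨h3, h4⟩ := Tau.tau_pic hd hm hk' hN ι a hι ha hcomp hcomm q hq disc h2
  exact ⟨h3, h4, fun i => tight_fac hP hM hq (hw i) (hι i) (h1 i)⟩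

end one

/-! ### The amplification -/

section amplif

variable {Γ K κ Q : Type} [Group Γ] [NormedAddCommGroup K] [InnerProductSpace ℂ K]
  [CompleteSpace K] [Fintype κ] [Group Q] [Fintype Q]
  {E : Type} [Group E] {π : E →* (K →L[ℂ] K)} {Ω : κ → K} {m : Set Γ → (K →L[ℂ] K)}

theorem norm_amp_sq (j : κ ↪ Q) (T : K →L[ℂ] K) (u : E) :
    ‖amp T (ampH Q π u (ampO j Ω))‖ ^ 2 = ∑ c, ‖T (π u (Ω c))‖ ^ 2 := by
  rw [norm_sq_KT]
  have h1 : ∀ q : Q, ‖(amp T (ampH Q π u (ampO j Ω))) q‖ ^ 2 =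
      (fun x : K => ‖T (π u x)‖ ^ 2) (ampO j Ω q) := fun q => rfl
  simp only [h1]
  exact sum_ampO j Ω (fun x : K => ‖T (π u x)‖ ^ 2) (by simp)

theorem le_amp (j : κ ↪ Q) (T : K →L[ℂ] K) (u : E) (c : κ) :
    ‖T (π u (Ω c))‖ ≤ ‖amp T (ampH Q π u (ampO j Ω))‖ := by
  have h1 := norm_amp_sq (π := π) (Ω := Ω) j T u
  have h2 : ‖T (π u (Ω c))‖ ^ 2 ≤ ∑ c, ‖T (π u (Ω c))‖ ^ 2 :=
    Finset.single_le_sum (f := fun c => ‖T (π u (Ω c))‖ ^ 2) (fun c _ => by positivity)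
      (Finset.mem_univ c)
  rw [← h1] at h2
  exact (pow_le_pow_iff_left₀ (norm_nonneg _) (norm_nonneg _) two_ne_zero).mp h2

theorem amp_le_of (j : κ ↪ Q) (T : K →L[ℂ] K) (u : E) {δ ε : ℝ} (hε : 0 ≤ ε)
    (h : ∀ c, ‖T (π u (Ω c))‖ ≤ δ) (hδ : Fintype.card κ * δ ^ 2 ≤ ε ^ 2) :
    ‖amp T (ampH Q π u (ampO j Ω))‖ ≤ ε := by
  have h1 := norm_amp_sq (π := π) (Ω := Ω) j T u
  have h2 : ∑ c, ‖T (π u (Ω c))‖ ^ 2 ≤ Fintype.card κ * δ ^ 2 := by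
    refine (Finset.sum_le_card_nsmul _ _ (δ ^ 2) fun c _ => ?_).trans ?_
    · exact pow_le_pow_left₀ (norm_nonneg _) (h c) 2
    · rw [nsmul_eq_mul, Finset.card_univ]
  rw [← h1] at h2
  exact (pow_le_pow_iff_left₀ (norm_nonneg _) hε two_ne_zero).mp (h2.trans hδ)

end amplif

theorem exists_small (n : ℕ) {ε : ℝ} (hε : 0 < ε) : ∃ δ : ℝ, 0 < δ ∧ n * δ ^ 2 ≤ ε ^ 2 := by
  refine ⟨ε / (n + 1), by positivity, ?_⟩
  rw [div_pow, mul_div_assoc']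
  rw [div_le_iff₀ (by positivity)]
  have h1 : (n : ℝ) ≤ (n + 1) ^ 2 := by nlinarith [sq_nonneg (n : ℝ), Nat.cast_nonneg (α := ℝ) n]
  calc (n : ℝ) * ε ^ 2 ≤ (n + 1) ^ 2 * ε ^ 2 := mul_le_mul_of_nonneg_right h1 (by positivity)
    _ = ε ^ 2 * (n + 1) ^ 2 := by ring

section fam

variable {J Γ K κ : Type} [Fintype J] [DecidableEq J] {k' : J → Type}
  [∀ j, NontriviallyNormedField (k' j)] [∀ j, ProperSpace (k' j)] {N' : J → ℕ}
  {E : Type} [Group E] [TopologicalSpace E]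
  [Group Γ] [NormedAddCommGroup K] [InnerProductSpace ℂ K]
  [CompleteSpace K] [Fintype κ] {π : E →* (K →L[ℂ] K)} {lam : Γ →* (K →L[ℂ] K)}
  {W : Set (K →L[ℂ] K)} {Ω : κ → K} {m : Set Γ → (K →L[ℂ] K)} {q : ∀ j, Γ → GG (k' j) (N' j)}

theorem off_anti (q : ∀ j, Γ → GG (k' j) (N' j)) (j : J) {r r' : ℝ} (h : r ≤ r') :
    {γ : Γ | ∃ j', j' ≠ j ∧ r' < nm (q j' γ)} ⊆ {γ | ∃ j', j' ≠ j ∧ r < nm (q j' γ)} :=
  fun _ ⟨i, hi, hi2⟩ => ⟨i, hi, h.trans_lt hi2⟩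

/-- tightness of all the vectors of the family is tightness of the amplified vector -/
theorem nt_amp_iff {Q : Type} [Group Q] [Fintype Q] (i : κ ↪ Q)
    (hM : Ms (ampH Q lam) (ampW Q W) (ampO i Ω) (fun S => amp (Q := Q) (m S))) (j : J)
    (𝒰 : Set E) :
    NT (ampH Q π) (fun S => amp (Q := Q) (m S)) (ampO i Ω) q j 𝒰 ↔
      ∀ c, NT π m (Ω c) q j 𝒰 := by
  constructor
  · intro h c ε hε
    obtain ⟨r, hr⟩ := h ε hε
    exact ⟨r, fun u hu => (le_amp i _ u c).trans (hr u hu)⟩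
  · intro h ε hε
    obtain ⟨δ, hδ, hδ2⟩ := exists_small (Fintype.card κ) hε
    choose r hr using fun c => h c δ hδ
    refine ⟨∑ c, |r c|, fun u hu => ?_⟩
    have h0 : ∀ c, r c ≤ ∑ c, |r c| := fun c => (le_abs_self _).trans
      (Finset.single_le_sum (f := fun c => |r c|) (fun i _ => abs_nonneg _) (Finset.mem_univ c))
    refine amp_le_of i _ u hε.le (fun c => ?_) hδ2
    refine le_trans ?_ (hr c u hu)
    have hs := off_anti q j (h0 c)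
    have e : m {γ | ∃ j', j' ≠ j ∧ ∑ c, |r c| < nm (q j' γ)} (π u (Ω c)) =
        m {γ | ∃ j', j' ≠ j ∧ ∑ c, |r c| < nm (q j' γ)}
          (m {γ | ∃ j', j' ≠ j ∧ r c < nm (q j' γ)} (π u (Ω c))) := by
      have h3 : amp (Q := Q) (m ({γ | ∃ j', j' ≠ j ∧ ∑ c, |r c| < nm (q j' γ)} ∩
          {γ | ∃ j', j' ≠ j ∧ r c < nm (q j' γ)})) = amp (Q := Q)
          (m {γ | ∃ j', j' ≠ j ∧ ∑ c, |r c| < nm (q j' γ)} *
            m {γ | ∃ j', j' ≠ j ∧ r c < nm (q j' γ)}) := by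
        rw [amp_mul]
        exact hM.inf _ _
      have h4 := amp_inj h3
      rw [Set.inter_eq_left.mpr hs] at h4
      conv_lhs => rw [h4]
      rfl
    rw [e]
    have hn : ∀ (S : Set Γ) (x : K), ‖m S x‖ ≤ ‖x‖ := by
      intro S x
      have h5 := H515.Tau.Ms.norm_le hM S (em 1 x)
      change ‖amp (m S) (em 1 x)‖ ≤ _ at h5
      rwa [amp_em, norm_em, norm_em] at h5
    exact hn _ _

end fam

/-! ### The family form -/

section famF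

variable {I : Type} [Fintype I] [DecidableEq I] {k k' : I → Type}
  [∀ i, NontriviallyNormedField (k i)] [∀ i, ProperSpace (k i)]
  [∀ i, NontriviallyNormedField (k' i)] [∀ i, ProperSpace (k' i)] {N : I → ℕ}
  {E : Type} [Group E] [TopologicalSpace E] [IsTopologicalGroup E] [MeasurableSpace E]
  [BorelSpace E]
  {Γ K κ : Type} [Group Γ] [Countable Γ] [NormedAddCommGroup K] [InnerProductSpace ℂ K]
  [CompleteSpace K] [Fintype κ] {π : E →* (K →L[ℂ] K)} {lam : Γ →* (K →L[ℂ] K)}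
  {W : Set (K →L[ℂ] K)} {Ω : κ → K} {m : Set Γ → (K →L[ℂ] K)} {mass : E → (Γ → ℝ) → ℝ}

/-- an amplification with one vector -/
theorem exists_ampQ (hP : PicF π lam W Ω) (hM : MsF lam W Ω m) :
    ∃ (Q : Type) (_ : Group Q) (_ : Fintype Q) (i : κ ↪ Q),
      PicX (ampH Q π) (ampH Q lam) (ampW Q W) (ampO i Ω) ∧
      Ms (ampH Q lam) (ampW Q W) (ampO i Ω) (fun S => amp (Q := Q) (m S)) := by
  obtain ⟨n, hn⟩ := hP.exists_amp
  have hc : Fintype.card (Multiplicative (ZMod (n + Fintype.card κ + 1))) =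
      n + Fintype.card κ + 1 := by rw [Fintype.card_multiplicative, ZMod.card]
  obtain ⟨i⟩ : Nonempty (κ ↪ Multiplicative (ZMod (n + Fintype.card κ + 1))) :=
    Function.Embedding.nonempty_of_card_le (by rw [hc]; omega)
  exact ⟨Multiplicative (ZMod (n + Fintype.card κ + 1)), inferInstance, inferInstance, i,
    hn _ (by rw [hc]; omega) i, hM.amp i⟩

/-- **T2, products of sets, families** -/
theorem nt_mulF (hP : PicF π lam W Ω) (hM : MsF lam W Ω m) {q : ∀ j, Γ → GG (k' j) (N j)}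
    (hq : ∀ j, PH (q j)) {j : I} {𝒰 𝒱 : Set E} (h : ∀ c, NT π m (Ω c) q j 𝒰)
    (h' : ∀ c, NT π m (Ω c) q j 𝒱) : ∀ c, NT π m (Ω c) q j (𝒰 * 𝒱) := by
  obtain ⟨Q, _, _, i, hX, hMX⟩ := exists_ampQ hP hM
  exact (nt_amp_iff i hMX j _).1 (nt_mul hX hMX hq ((nt_amp_iff i hMX j _).2 h)
    ((nt_amp_iff i hMX j _).2 h'))

/-- **T2, one factor, families** -/
theorem tight_facF (hP : PicF π lam W Ω) (hM : MsF lam W Ω m) {q : ∀ j, Γ → GG (k' j) (N j)}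
    (hq : ∀ j, PH (q j)) {ι : ∀ i, GG (k i) (N i) →* E} {w : ∀ i, (k i)ˣ} {i : I}
    (hw : KW (N i) (w i)) (hι : Continuous (ι i)) {j : I}
    (h : ∀ c (ε : ℝ), 0 < ε → ∃ r : ℝ, ∀ v ∈ Subgroup.zpowers (ι i (bw (w i))),
      ‖m {γ | ∃ i', i' ≠ j ∧ r < nm (q i' γ)} (π v (Ω c))‖ ≤ ε) :
    ∀ c (ε : ℝ), 0 < ε → ∃ r : ℝ, ∀ g : GG (k i) (N i),
      ‖m {γ | ∃ i', i' ≠ j ∧ r < nm (q i' γ)} (π (ι i g) (Ω c))‖ ≤ ε := by
  obtain ⟨Q, _, _, i', hX, hMX⟩ := exists_ampQ hP hM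
  have h1 := tight_fac hX hMX hq hw hι (j := j)
    ((nt_amp_iff i' hMX j (Subgroup.zpowers (ι i (bw (w i))) : Set E)).2 h)
  intro c ε hε
  obtain ⟨r, hr⟩ := h1 ε hε
  exact ⟨r, fun g => (le_amp i' _ _ c).trans (hr g)⟩

/-- **[P-TAU] for a family, for a given `τ`**. -/
theorem tau_F (hd : ∀ _ : DecidableEq Γ, ∃ t : ℝ,
      SharpData t mass (fun K : Set E => IsCompact K) (PingT E))
    (hm : ∀ (u : E) (S : Set Γ), mass u (ind fun γ => γ ∈ S) = ∑ c, ‖m S (π u (Ω c))‖ ^ 2)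
    (hP : PicF π lam W Ω) (hM : MsF lam W Ω m)
    (hk' : ∀ j, LocK (k' j)) (hN : ∀ i, 0 < N i) {ι : ∀ i, GG (k i) (N i) →* E}
    {a : ∀ i, E →* PG (k i) (N i + 1)} (hι : ∀ i, Continuous (ι i)) (ha : ∀ i, Continuous (a i))
    (hcomp : ∀ i g (x : YY (k i) (N i)), a i (ι i g) • x = g • x)
    (hcomm : ∀ i j, i ≠ j → ∀ g h, Commute (ι i g) (ι j h))
    {q : ∀ j, Γ → GG (k' j) (N j)} (hq : ∀ j, PH (q j))
    (disc : ∀ C : ℝ, {γ : Γ | ∀ j, nm (q j γ) ≤ C}.Finite) {w : ∀ i, (k i)ˣ}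
    (hw : ∀ i, KW (N i) (w i)) {τ : I → I}
    (h1 : ∀ i c (ε : ℝ), 0 < ε → ∃ r : ℝ, ∀ v ∈ Subgroup.zpowers (ι i (bw (w i))),
      ‖m {γ | ∃ j', j' ≠ τ i ∧ r < nm (q j' γ)} (π v (Ω c))‖ ≤ ε) :
    Function.Bijective τ ∧ (∀ i, N (τ i) = N i) ∧
      ∀ i c (ε : ℝ), 0 < ε → ∃ r : ℝ, ∀ g : GG (k i) (N i),
        ‖m {γ | ∃ j', j' ≠ τ i ∧ r < nm (q j' γ)} (π (ι i g) (Ω c))‖ ≤ ε := by
  obtain ⟨Q, _, _, i', hX, hMX⟩ := exists_ampQ hP hM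
  obtain ⟨h2, h3, h4⟩ := tau_X (mass := mass) hd
    (fun u S => (hm u S).trans (norm_amp_sq i' (m S) u).symm) hX hMX hk' hN hι ha hcomp hcomm hq
    disc hw (τ := τ) fun i =>
      (nt_amp_iff i' hMX (τ i) (Subgroup.zpowers (ι i (bw (w i))) : Set E)).2 (h1 i)
  refine ⟨h2, h3, fun i c ε hε => ?_⟩
  obtain ⟨r, hr⟩ := h4 i ε hε
  exact ⟨r, fun g => (le_amp i' _ _ c).trans (hr g)⟩

/-- **[P-TAU] for a family, abstract**: `H584.Tau.tau_out_abs` for `PicF`. -/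
theorem tau_outF (hd : ∀ _ : DecidableEq Γ, ∃ t : ℝ,
      SharpData t mass (fun K : Set E => IsCompact K) (PingT E))
    (hm : ∀ (u : E) (S : Set Γ), mass u (ind fun γ => γ ∈ S) = ∑ c, ‖m S (π u (Ω c))‖ ^ 2)
    (hP : PicF π lam W Ω) (hM : MsF lam W Ω m)
    (hk' : ∀ j, LocK (k' j)) (hN : ∀ i, 0 < N i) {ι : ∀ i, GG (k i) (N i) →* E}
    {a : ∀ i, E →* PG (k i) (N i + 1)} (hι : ∀ i, Continuous (ι i)) (ha : ∀ i, Continuous (a i))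
    (hcomp : ∀ i g (x : YY (k i) (N i)), a i (ι i g) • x = g • x)
    (hcomm : ∀ i j, i ≠ j → ∀ g h, Commute (ι i g) (ι j h))
    {q : ∀ j, Γ → GG (k' j) (N j)} (hq : ∀ j, PH (q j))
    (disc : ∀ C : ℝ, {γ : Γ | ∀ j, nm (q j γ) ≤ C}.Finite) {w : ∀ i, (k i)ˣ}
    (hw : ∀ i, KW (N i) (w i))
    (h1 : ∀ i, ∃ j, ∀ (ξ : K) (ε : ℝ), 0 < ε → ∃ r : ℝ, ∀ v ∈ Subgroup.zpowers (ι i (bw (w i))),
      ‖m {γ | ∃ j', j' ≠ j ∧ r < nm (q j' γ)} (π v ξ)‖ ≤ ε) :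
    ∃ τ : I → I, Function.Bijective τ ∧ (∀ i, N (τ i) = N i) ∧
      (∀ i (ξ : K) (ε : ℝ), 0 < ε → ∃ r : ℝ, ∀ v ∈ Subgroup.zpowers (ι i (bw (w i))),
        ‖m {γ | ∃ j', j' ≠ τ i ∧ r < nm (q j' γ)} (π v ξ)‖ ≤ ε) ∧
      ∀ i c (ε : ℝ), 0 < ε → ∃ r : ℝ, ∀ g : GG (k i) (N i),
        ‖m {γ | ∃ j', j' ≠ τ i ∧ r < nm (q j' γ)} (π (ι i g) (Ω c))‖ ≤ ε := by
  choose τ hτ using h1
  obtain ⟨h3, h4, h5⟩ := tau_F hd hm hP hM hk' hN hι ha hcomp hcomm hq disc hw (τ := τ)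
    fun i c => hτ i (Ω c)
  exact ⟨τ, h3, h4, hτ, h5⟩

end famF

end Vale.Agent.P092.H584.TX
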