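import Vale.Agent.P092.H515.TauS
import Vale.Agent.P092.H962.C.Amp

/-!
P092 (helper584): port of helper515's `H515/TauS.lean` to `RC.PicX`.
Team N, [P-TAU] (T2): subadditivity of positions. `κ : Γ →* H` is a coordinate of
the target, possibly with dense image. If the positions of `π u Ω`, `u ∈ 𝒰`, and of `π s Ω`,
`s ∈ 𝒮`, are tight in `H`, so are the positions of `π (u * s) Ω`.
-/

set_option linter.all false

open scoped InnerProductSpace ENNReal Pointwise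
open MeasureTheory Filter Topology ContinuousLinearMap

namespace Vale.Agent.P092.H584.TX

open Vale.Agent.P092.RC (PicX TRN Cm Moore)
open Vale.Agent.P092.H515.Tau
open Vale.Agent.P092.SD (Ms)

section basic

variable {E Γ K : Type} [Group E] [TopologicalSpace E] [Group Γ] [NormedAddCommGroup K]
  [InnerProductSpace ℂ K] [CompleteSpace K]
  {π : E →* (K →L[ℂ] K)} {lam : Γ →* (K →L[ℂ] K)} {W : Set (K →L[ℂ] K)} {Ω : K}
  {m : Set Γ → (K →L[ℂ] K)}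

theorem pi_norm (hP : PicX π lam W Ω) (g : E) (ξ : K) : ‖π g ξ‖ = ‖ξ‖ := by
  have h1 : ⟪π g ξ, π g ξ⟫_ℂ = ⟪ξ, ξ⟫_ℂ := by
    rw [← adjoint_inner_right, hP.adjP, ← mul_ap, ← map_mul, inv_mul_cancel, map_one]
    rfl
  rw [inner_self_eq_norm_sq_to_K, inner_self_eq_norm_sq_to_K] at h1
  have h2 : ‖π g ξ‖ ^ 2 = ‖ξ‖ ^ 2 := by exact_mod_cast h1
  exact (pow_left_inj₀ (norm_nonneg _) (norm_nonneg _) two_ne_zero).mp h2

theorem lam_norm (hP : PicX π lam W Ω) (g : Γ) (ξ : K) : ‖lam g ξ‖ = ‖ξ‖ := by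
  have h1 : ⟪lam g ξ, lam g ξ⟫_ℂ = ⟪ξ, ξ⟫_ℂ := by
    rw [← adjoint_inner_right, hP.adjL, ← mul_ap, ← map_mul, inv_mul_cancel, map_one]
    rfl
  rw [inner_self_eq_norm_sq_to_K, inner_self_eq_norm_sq_to_K] at h1
  have h2 : ‖lam g ξ‖ ^ 2 = ‖ξ‖ ^ 2 := by exact_mod_cast h1
  exact (pow_left_inj₀ (norm_nonneg _) (norm_nonneg _) two_ne_zero).mp h2


theorem cm_adj (hP : PicX π lam W Ω) {A : K →L[ℂ] K} (hA : Cm W A) : Cm W (adjoint A) := by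
  intro w hw
  have h1 := hA (adjoint w) (hP.Wadj w hw)
  have h2 := congrArg (fun T : K →L[ℂ] K => adjoint T) h1
  simp only [← star_eq_adjoint, star_mul, star_star] at h2
  rw [← star_eq_adjoint, ← h2]

theorem cm_conj (hP : PicX π lam W Ω) {A : K →L[ℂ] K} (hA : Cm W A) (g : E) :
    Cm W (π g * A * π g⁻¹) := by
  intro w hw
  have h1 := hA _ (hP.WP w hw g⁻¹)
  rw [inv_inv] at h1
  have e1 : π g * π g⁻¹ = 1 := by rw [← map_mul, mul_inv_cancel, map_one]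
  have e2 : π g⁻¹ * π g = 1 := by rw [← map_mul, inv_mul_cancel, map_one]
  calc π g * A * π g⁻¹ * w = π g * (A * (π g⁻¹ * w * π g)) * π g⁻¹ := by
        simp only [mul_assoc, e1, mul_one]
    _ = π g * ((π g⁻¹ * w * π g) * A) * π g⁻¹ := by rw [h1]
    _ = (π g * π g⁻¹) * w * (π g * A * π g⁻¹) := by simp only [mul_assoc]
    _ = w * (π g * A * π g⁻¹) := by rw [e1, one_mul]

/-- `P_s = π(s) m_1 π(s)*`: the trace of `T P_s` -/
theorem trn_right (hP : PicX π lam W Ω) (hM : Ms lam W Ω m) {T : K →L[ℂ] K} (hT : Cm W T) (s : E) :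
    TRN lam Ω (T * (π s * m {1} * π s⁻¹)) = ‖T (π s Ω)‖ₑ ^ 2 := by
  have hTP : Cm W (T * (π s * m {1} * π s⁻¹)) := cm_mul hT (cm_conj hP (hM.cm _) s)
  rw [← hP.tr_conj _ hTP s⁻¹, TRN, tsum_eq_single 1]
  · have e2 : π s⁻¹ * π s = 1 := by rw [← map_mul, inv_mul_cancel, map_one]
    have h1 : (π s⁻¹ * (T * (π s * m {1} * π s⁻¹)) * π s⁻¹⁻¹) (lam 1 Ω) = π s⁻¹ (T (π s Ω)) := by
      rw [inv_inv, map_one]
      change π s⁻¹ (T (π s (m {1} (π s⁻¹ (π s Ω))))) = _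
      rw [pi_inv_ap, hM.om]
    rw [h1]
    rw [← ofReal_norm_eq_enorm, ← ofReal_norm_eq_enorm, pi_norm hP]
  · intro γ hγ
    have h1 : (π s⁻¹ * (T * (π s * m {1} * π s⁻¹)) * π s⁻¹⁻¹) (lam γ Ω) = 0 := by
      rw [inv_inv]
      change π s⁻¹ (T (π s (m {1} (π s⁻¹ (π s (lam γ Ω)))))) = _
      rw [pi_inv_ap, Ms.single_lam hM, Ms.single_om hM (inv_ne_one.mpr hγ)]
      simp
    rw [h1]; simp

/-- the trace of `P_s T` -/
theorem trn_left (hP : PicX π lam W Ω) (hM : Ms lam W Ω m) (T : K →L[ℂ] K) (s : E) :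
    TRN lam Ω ((π s * m {1} * π s⁻¹) * T) =
      ∑' γ, ‖m {1} (π s⁻¹ (T (lam γ Ω)))‖ₑ ^ 2 := by
  rw [TRN]
  congr 1
  funext γ
  change ‖π s (m {1} (π s⁻¹ (T (lam γ Ω))))‖ₑ ^ 2 = _
  rw [← ofReal_norm_eq_enorm, pi_norm hP, ofReal_norm_eq_enorm]

/-- **The averaging identity for one operator.** -/
theorem enorm_sq_eq (hP : PicX π lam W Ω) (hM : Ms lam W Ω m) {T : K →L[ℂ] K} (hT : Cm W T)
    (s : E) : ‖T (π s Ω)‖ₑ ^ 2 = ∑' γ, ‖m {1} (π s⁻¹ (adjoint T (lam γ Ω)))‖ₑ ^ 2 := by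
  have hPs : Cm W (π s * m {1} * π s⁻¹) := cm_conj hP (hM.cm _) s
  have hadj : adjoint (π s * m {1} * π s⁻¹) = π s * m {1} * π s⁻¹ := by
    rw [← star_eq_adjoint, star_mul, star_mul, star_eq_adjoint, star_eq_adjoint, star_eq_adjoint,
      hP.adjP, hP.adjP, hM.adj, inv_inv, mul_assoc]
  rw [← trn_right hP hM hT s, ← hP.tr_adj _ (cm_mul hT hPs), ← trn_left hP hM]
  congr 1
  rw [← star_eq_adjoint, star_mul, star_eq_adjoint, star_eq_adjoint, hadj]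

end basic

section avg

variable {E Γ K H : Type} [Group E] [TopologicalSpace E] [Group Γ] [NormedAddCommGroup K]
  [InnerProductSpace ℂ K] [CompleteSpace K] [Group H] [MeasurableSpace H]
  {π : E →* (K →L[ℂ] K)} {lam : Γ →* (K →L[ℂ] K)} {W : Set (K →L[ℂ] K)} {Ω : K}
  {m : Set Γ → (K →L[ℂ] K)}

/-- The averaged square norm of an equivariant field does not depend on the group element. -/
theorem lint_eq [Countable Γ] [MeasurableMul H] (hP : PicX π lam W Ω) (hM : Ms lam W Ω m)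
    (μ : Measure H) [μ.IsMulLeftInvariant] (κ : Γ →* H) {C : H → (K →L[ℂ] K)}
    (hC : ∀ h, Cm W (C h)) (hcov : ∀ γ h, lam γ * C h * lam γ⁻¹ = C (κ γ * h))
    (hmeas : ∀ ζ, StronglyMeasurable fun h => adjoint (C h) ζ) (s : E) :
    ∫⁻ h, ‖C h (π s Ω)‖ₑ ^ 2 ∂μ = ∫⁻ h, ‖adjoint (C h) Ω‖ₑ ^ 2 ∂μ := by
  have hco : ∀ γ h, adjoint (C h) (lam γ Ω) = lam γ (adjoint (C ((κ γ)⁻¹ * h)) Ω) := by
    intro γ h
    have h1 := hcov γ ((κ γ)⁻¹ * h)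
    rw [mul_inv_cancel_left] at h1
    rw [← h1]
    have h2 : adjoint (lam γ * C ((κ γ)⁻¹ * h) * lam γ⁻¹) =
        lam γ * adjoint (C ((κ γ)⁻¹ * h)) * lam γ⁻¹ := by
      rw [← star_eq_adjoint, star_mul, star_mul, star_eq_adjoint, star_eq_adjoint,
        star_eq_adjoint, hP.adjL, hP.adjL, inv_inv, mul_assoc]
    rw [h2, mul_ap, mul_ap, lam_inv_ap]
  have h3 : ∀ h, ‖C h (π s Ω)‖ₑ ^ 2 =
      ∑' γ, ‖m {1} (π s⁻¹ (lam γ (adjoint (C ((κ γ)⁻¹ * h)) Ω)))‖ₑ ^ 2 := fun h => by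
    rw [enorm_sq_eq hP hM (hC h) s]
    congr 1
    funext γ
    rw [hco]
  have hm1 : ∀ γ, Measurable fun h => ‖m {1} (π s⁻¹ (lam γ (adjoint (C h) Ω)))‖ₑ ^ 2 := by
    intro γ
    refine Measurable.pow_const ?_ 2
    exact (((m {1}).continuous.comp ((π s⁻¹).continuous.comp (lam γ).continuous)).comp_stronglyMeasurable
      (hmeas Ω)).enorm
  have hm2 : ∀ γ, Measurable fun h =>
      ‖m {1} (π s⁻¹ (lam γ (adjoint (C ((κ γ)⁻¹ * h)) Ω)))‖ₑ ^ 2 := fun γ =>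
    (hm1 γ).comp (measurable_const_mul _)
  calc ∫⁻ h, ‖C h (π s Ω)‖ₑ ^ 2 ∂μ
      = ∫⁻ h, ∑' γ, ‖m {1} (π s⁻¹ (lam γ (adjoint (C ((κ γ)⁻¹ * h)) Ω)))‖ₑ ^ 2 ∂μ := by
        exact lintegral_congr h3
    _ = ∑' γ, ∫⁻ h, ‖m {1} (π s⁻¹ (lam γ (adjoint (C ((κ γ)⁻¹ * h)) Ω)))‖ₑ ^ 2 ∂μ :=
        lintegral_tsum fun γ => (hm2 γ).aemeasurable
    _ = ∑' γ, ∫⁻ h, ‖m {1} (π s⁻¹ (lam γ (adjoint (C h) Ω)))‖ₑ ^ 2 ∂μ := by
        congr 1
        funext γ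
        exact lintegral_mul_left_eq_self
          (fun h => ‖m {1} (π s⁻¹ (lam γ (adjoint (C h) Ω)))‖ₑ ^ 2) (κ γ)⁻¹
    _ = ∫⁻ h, ∑' γ, ‖m {1} (π s⁻¹ (lam γ (adjoint (C h) Ω)))‖ₑ ^ 2 ∂μ :=
        (lintegral_tsum fun γ => (hm1 γ).aemeasurable).symm
    _ = ∫⁻ h, ‖adjoint (C h) Ω‖ₑ ^ 2 ∂μ := by
        refine lintegral_congr fun h => ?_
        have h5 : ∀ γ, m {1} (π s⁻¹ (lam γ (adjoint (C h) Ω))) =
            lam γ (m {γ⁻¹} (π s⁻¹ (adjoint (C h) Ω))) := fun γ => by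
          have h6 : π s⁻¹ (lam γ (adjoint (C h) Ω)) = lam γ (π s⁻¹ (adjoint (C h) Ω)) := by
            rw [← mul_ap, hP.comm, mul_ap]
          rw [h6, Ms.single_lam hM]
        simp only [h5]
        have h7 : ∀ γ, ‖lam γ (m {γ⁻¹} (π s⁻¹ (adjoint (C h) Ω)))‖ₑ ^ 2 =
            (fun γ => ‖m {γ} (π s⁻¹ (adjoint (C h) Ω))‖ₑ ^ 2) γ⁻¹ := fun γ => by
          rw [← ofReal_norm_eq_enorm, lam_norm hP, ofReal_norm_eq_enorm]
        simp only [h7]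
        have h8 := (Equiv.inv Γ).tsum_eq (fun γ => ‖m {γ} (π s⁻¹ (adjoint (C h) Ω))‖ₑ ^ 2)
        change ∑' γ, ‖m {γ⁻¹} (π s⁻¹ (adjoint (C h) Ω))‖ₑ ^ 2 = _ at h8
        rw [h8, Ms.tsum_sq hM, ← ofReal_norm_eq_enorm, pi_norm hP, ofReal_norm_eq_enorm]

/-- **Subadditivity of positions, measure form.** -/
theorem sub_meas [Countable Γ] [MeasurableInv H] [MeasurableMul H] (hP : PicX π lam W Ω)
    (hM : Ms lam W Ω m) (μ : Measure H) [μ.IsMulLeftInvariant] (κ : Γ →* H) {A B V : Set H}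
    (hA : MeasurableSet A) (hB : MeasurableSet B) (hV : MeasurableSet V) (u s : E) {x y z : ℝ}
    (hz0 : 0 ≤ z) (hyx : y ≤ x)
    (hx : ∀ h ∈ V, x ≤ ‖m (Sh κ B h) (π (u * s) Ω)‖)
    (hy : ∀ h ∈ V, ‖m (Sh κ A h)ᶜ (π s Ω)‖ ≤ y)
    (hz : ∀ h, h⁻¹ ∈ A → ‖m (Sh κ B h) (π u Ω)‖ ≤ z) :
    ENNReal.ofReal ((x - y) ^ 2) * μ V ≤ ENNReal.ofReal (z ^ 2) * μ A⁻¹ := by
  obtain ⟨D, hD⟩ : ∃ D : H → (K →L[ℂ] K), ∀ h, D h = π u⁻¹ * m (Sh κ B h) * π u :=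
    ⟨_, fun _ => rfl⟩
  obtain ⟨C, hCdef⟩ : ∃ C : H → (K →L[ℂ] K), ∀ h, C h = D h * m (Sh κ A h) := ⟨_, fun _ => rfl⟩
  have hDap : ∀ h ξ, D h ξ = π u⁻¹ (m (Sh κ B h) (π u ξ)) := fun h ξ => by rw [hD]; rfl
  have hCap : ∀ h ξ, C h ξ = D h (m (Sh κ A h) ξ) := fun h ξ => by rw [hCdef]; rfl
  have hDadj : ∀ h, adjoint (D h) = D h := fun h => by
    rw [hD, ← star_eq_adjoint, star_mul, star_mul, star_eq_adjoint, star_eq_adjoint,
      star_eq_adjoint, hP.adjP, hP.adjP, hM.adj, inv_inv, mul_assoc]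
  have hDW : ∀ h, Cm W (D h) := fun h => by
    have := cm_conj hP (hM.cm (Sh κ B h)) u⁻¹
    rwa [inv_inv, ← hD] at this
  have hDn : ∀ h ξ, ‖D h ξ‖ = ‖m (Sh κ B h) (π u ξ)‖ := fun h ξ => by rw [hDap, pi_norm hP]
  have hDle : ∀ h ξ, ‖D h ξ‖ ≤ ‖ξ‖ := fun h ξ => by
    rw [hDn]; exact (Ms.norm_le hM _ _).trans (pi_norm hP u ξ).le
  have hl1 : ∀ γ : Γ, lam γ⁻¹ * lam γ = 1 := fun γ => by
    rw [← map_mul, inv_mul_cancel, map_one]
  have hDcov : ∀ γ h, lam γ * D h * lam γ⁻¹ = D (κ γ * h) := by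
    intro γ h
    rw [hD, hD]
    have h1 : ∀ g : E, lam γ * π g = π g * lam γ := fun g => (hP.comm g γ).symm
    have h2 : ∀ g : E, π g * lam γ⁻¹ = lam γ⁻¹ * π g := fun g => hP.comm g γ⁻¹
    have h3 := hM.cov γ (Sh κ B h)
    rw [image_Sh] at h3
    calc lam γ * (π u⁻¹ * m (Sh κ B h) * π u) * lam γ⁻¹
        = (lam γ * π u⁻¹) * m (Sh κ B h) * (π u * lam γ⁻¹) := by simp only [mul_assoc]
      _ = (π u⁻¹ * lam γ) * m (Sh κ B h) * (lam γ⁻¹ * π u) := by rw [h1, h2]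
      _ = π u⁻¹ * (lam γ * m (Sh κ B h) * lam γ⁻¹) * π u := by simp only [mul_assoc]
      _ = _ := by rw [h3]
  have hCcov : ∀ γ h, lam γ * C h * lam γ⁻¹ = C (κ γ * h) := by
    intro γ h
    have h3 := hM.cov γ (Sh κ A h)
    rw [image_Sh] at h3
    rw [hCdef, hCdef, ← hDcov, ← h3]
    calc lam γ * (D h * m (Sh κ A h)) * lam γ⁻¹
        = lam γ * D h * 1 * m (Sh κ A h) * lam γ⁻¹ := by simp only [mul_assoc, mul_one]
      _ = lam γ * D h * (lam γ⁻¹ * lam γ) * m (Sh κ A h) * lam γ⁻¹ := by rw [hl1]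
      _ = _ := by simp only [mul_assoc]
  have hCadj : ∀ h ζ, adjoint (C h) ζ = m (Sh κ A h) (D h ζ) := fun h ζ => by
    rw [hCdef, ← star_eq_adjoint, star_mul, star_eq_adjoint, star_eq_adjoint, hDadj, hM.adj]
    rfl
  have hmeasD : ∀ ζ, StronglyMeasurable fun h => D h ζ := fun ζ => by
    have h1 := meas_Sh hM κ hB (stronglyMeasurable_const (α := H) (b := π u ζ))
    simp only [hDap]
    exact (π u⁻¹).continuous.comp_stronglyMeasurable h1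
  have hmeas : ∀ ζ, StronglyMeasurable fun h => adjoint (C h) ζ := fun ζ => by
    simp only [hCadj]
    exact meas_Sh hM κ hA (hmeasD ζ)
  have key1 := lint_eq hP hM μ κ (fun h => cm_mul (hDW h) (hM.cm (Sh κ A h)) |> fun h1 => by
    rw [hCdef]; exact h1) hCcov hmeas s
  have key2 := lint_eq hP hM μ κ (fun h => cm_mul (hDW h) (hM.cm (Sh κ A h)) |> fun h1 => by
    rw [hCdef]; exact h1) hCcov hmeas 1
  rw [← key2, map_one] at key1
  -- lower bound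
  have hlow : ENNReal.ofReal ((x - y) ^ 2) * μ V ≤ ∫⁻ h, ‖C h (π s Ω)‖ₑ ^ 2 ∂μ := by
    rw [← setLIntegral_const]
    refine (setLIntegral_mono' hV fun h hh => ?_).trans (setLIntegral_le_lintegral _ _)
    have h1 : x - y ≤ ‖C h (π s Ω)‖ := by
      have h2 : D h (π s Ω) = C h (π s Ω) + D h (m (Sh κ A h)ᶜ (π s Ω)) := by
        rw [hCap, hM.compl, ContinuousLinearMap.sub_apply, map_sub]
        simp
      have h3 := hx h hh
      rw [map_mul, mul_ap, ← hDn, h2] at h3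
      have h4 := norm_add_le (C h (π s Ω)) (D h (m (Sh κ A h)ᶜ (π s Ω)))
      have h5 := (hDle h (m (Sh κ A h)ᶜ (π s Ω))).trans (hy h hh)
      linarith
    have e : ‖C h (π s Ω)‖ₑ ^ 2 = ENNReal.ofReal (‖C h (π s Ω)‖ ^ 2) := by
      rw [ENNReal.ofReal_pow (norm_nonneg _), ofReal_norm_eq_enorm]
    rw [e]
    exact ENNReal.ofReal_le_ofReal (pow_le_pow_left₀ (by linarith) h1 2)
  -- upper bound
  have hup : ∫⁻ h, ‖C h ((1 : K →L[ℂ] K) Ω)‖ₑ ^ 2 ∂μ ≤ ENNReal.ofReal (z ^ 2) * μ A⁻¹ := by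
    rw [← setLIntegral_const, ← lintegral_indicator hA.inv]
    refine lintegral_mono fun h => ?_
    have h1 : C h ((1 : K →L[ℂ] K) Ω) = D h (m (Sh κ A h) Ω) := by rw [hCap]; rfl
    rw [h1]
    by_cases hh : h⁻¹ ∈ A
    · rw [Set.indicator_of_mem (by exact hh)]
      have h2 : (1 : Γ) ∈ Sh κ A h := by
        change h⁻¹ * κ 1 ∈ A
        rwa [map_one, mul_one]
      rw [Ms.om_mem hM h2]
      have e : ‖D h Ω‖ₑ ^ 2 = ENNReal.ofReal (‖D h Ω‖ ^ 2) := by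
        rw [ENNReal.ofReal_pow (norm_nonneg _), ofReal_norm_eq_enorm]
      rw [e]
      refine ENNReal.ofReal_le_ofReal (pow_le_pow_left₀ (norm_nonneg _) ?_ 2)
      rw [hDn]
      exact hz h hh
    · rw [Set.indicator_of_notMem (by exact hh)]
      have h2 : (1 : Γ) ∉ Sh κ A h := by
        change ¬ (h⁻¹ * κ 1 ∈ A)
        rwa [map_one, mul_one]
      rw [Ms.om_notMem hM h2]
      simp
  rw [key1] at hlow
  exact hlow.trans hup

end avg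

/-! ### Tight sets -/

section tgt

variable {E Γ K H : Type} [Group E] [TopologicalSpace E] [Group Γ] [NormedAddCommGroup K]
  [InnerProductSpace ℂ K] [CompleteSpace K] [Group H] [TopologicalSpace H]
  {π : E →* (K →L[ℂ] K)} {lam : Γ →* (K →L[ℂ] K)} {W : Set (K →L[ℂ] K)} {Ω : K}
  {m : Set Γ → (K →L[ℂ] K)} {κ : Γ →* H}

/-- compact sets are tight -/
theorem tgt_of_isCompact (hP : PicX π lam W Ω) (hM : Ms lam W Ω m) (κ : Γ →* H) {𝒰 : Set E}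
    (h𝒰 : IsCompact 𝒰) : Tgt π m Ω κ 𝒰 := by
  classical
  intro ε hε
  have key : ∀ u ∈ 𝒰, ∃ F : Finset Γ, ∀ᶠ v in 𝓝[𝒰] u, ‖m ((F : Set Γ))ᶜ (π v Ω)‖ ≤ ε := by
    intro u _
    obtain ⟨F, hF⟩ := hM.fin (π u Ω) (ε / 2) (by positivity)
    refine ⟨F, Filter.Eventually.filter_mono nhdsWithin_le_nhds ?_⟩
    have h1 : Tendsto (fun v => ‖m ((F : Set Γ))ᶜ (π v Ω)‖) (𝓝 u)
        (𝓝 ‖m ((F : Set Γ))ᶜ (π u Ω)‖) :=
      (((m ((F : Set Γ))ᶜ).continuous.comp (hP.contP Ω)).norm).tendsto u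
    filter_upwards [h1.eventually (gt_mem_nhds (show ‖m ((F : Set Γ))ᶜ (π u Ω)‖ < ε by linarith))]
      with v hv using hv.le
  choose! F hF using key
  obtain ⟨t, ht, hcov⟩ := h𝒰.elim_nhdsWithin_subcover _ hF
  refine ⟨((t.biUnion F).image κ : Finset H), (Finset.finite_toSet _).isCompact, fun v hv => ?_⟩
  obtain ⟨u, hu, hv2⟩ := Set.mem_iUnion₂.mp (hcov hv)
  refine (Ms.mono hM ?_ _).trans hv2
  intro γ hγ hc
  refine hγ ?_
  simp only [Finset.coe_image, Set.mem_image]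
  exact ⟨γ, by
    simp only [Finset.coe_biUnion, Set.mem_iUnion]
    exact ⟨u, hu, hc⟩, rfl⟩

theorem tgt_finite (hP : PicX π lam W Ω) (hM : Ms lam W Ω m) (κ : Γ →* H) {𝒰 : Set E}
    (h𝒰 : 𝒰.Finite) : Tgt π m Ω κ 𝒰 := tgt_of_isCompact hP hM κ h𝒰.isCompact

/-- **Products of tight sets are tight.** -/
theorem tgt_mul [Countable Γ] [IsTopologicalGroup H] [LocallyCompactSpace H] [T2Space H]
    [SecondCountableTopology H] (hP : PicX π lam W Ω) (hM : Ms lam W Ω m) {𝒰 𝒮 : Set E}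
    (h : Tgt π m Ω κ 𝒰) (h' : Tgt π m Ω κ 𝒮) : Tgt π m Ω κ (𝒰 * 𝒮) := by
  letI : MeasurableSpace H := borel H
  haveI : BorelSpace H := ⟨rfl⟩
  obtain ⟨μ, hμ⟩ : ∃ μ : Measure H, μ = Measure.haar := ⟨_, rfl⟩
  haveI : μ.IsHaarMeasure := by rw [hμ]; infer_instance
  intro ε hε
  obtain ⟨Cs, hCs, hs⟩ := h' (ε / 2) (by positivity)
  obtain ⟨V, hV, hV1⟩ := exists_compact_mem_nhds (1 : H)
  obtain ⟨A, hAdef⟩ : ∃ A : Set H, A = V⁻¹ * Cs := ⟨_, rfl⟩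
  have hA : IsCompact A := by rw [hAdef]; exact hV.inv.mul hCs
  have hμA : μ A⁻¹ < ∞ := hA.inv.measure_lt_top
  have hμV : 0 < μ V := (Measure.measure_pos_of_mem_nhds μ hV1)
  have hμV' : μ V < ∞ := hV.measure_lt_top
  obtain ⟨q, hq⟩ : ∃ q : ℝ, q = (μ A⁻¹).toReal / (μ V).toReal := ⟨_, rfl⟩
  have hVr : 0 < (μ V).toReal := ENNReal.toReal_pos hμV.ne' hμV'.ne
  have hq0 : 0 ≤ q := by rw [hq]; positivity
  obtain ⟨δ, hδ, hδ2⟩ : ∃ δ : ℝ, 0 < δ ∧ δ ^ 2 * q ≤ (ε / 2) ^ 2 := by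
    refine ⟨(ε / 2) / Real.sqrt (q + 1), by positivity, ?_⟩
    rw [div_pow, Real.sq_sqrt (by positivity), div_mul_eq_mul_div, div_le_iff₀ (by positivity)]
    nlinarith [sq_nonneg (ε / 2)]
  obtain ⟨Cu, hCu, hu⟩ := h δ hδ
  refine ⟨V * (A * Cu), hV.mul (hA.mul hCu), ?_⟩
  rintro _ ⟨u, hu𝒰, s, hs𝒮, rfl⟩
  by_contra hcon
  push Not at hcon
  obtain ⟨x, hx⟩ : ∃ x : ℝ, x = ‖m {γ | κ γ ∉ V * (A * Cu)} (π (u * s) Ω)‖ := ⟨_, rfl⟩
  change ε < ‖m {γ | κ γ ∉ V * (A * Cu)} (π (u * s) Ω)‖ at hcon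
  rw [← hx] at hcon
  have hB : IsCompact (A * Cu) := hA.mul hCu
  have key := sub_meas hP hM μ κ (A := A) (B := (A * Cu)ᶜ) (V := V) hA.measurableSet
    hB.measurableSet.compl hV.measurableSet u s (x := x) (y := ε / 2) (z := δ) hδ.le (by linarith)
    ?_ ?_ ?_
  · -- conclusion
    rw [← ENNReal.ofReal_toReal hμV'.ne, ← ENNReal.ofReal_toReal hμA.ne,
      ← ENNReal.ofReal_mul (by positivity), ← ENNReal.ofReal_mul (by positivity),
      ENNReal.ofReal_le_ofReal_iff (by positivity)] at key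
    have h1 : (ε / 2) ^ 2 < (x - ε / 2) ^ 2 := by
      apply pow_lt_pow_left₀ (by linarith) (by positivity) two_ne_zero
    have h2 : δ ^ 2 * (μ A⁻¹).toReal = δ ^ 2 * q * (μ V).toReal := by
      rw [hq]; field_simp
    rw [h2] at key
    have h3 := mul_lt_mul_of_pos_right h1 hVr
    have h4 := mul_le_mul_of_nonneg_right hδ2 hVr.le
    linarith
  · intro h hh
    rw [hx]
    refine Ms.mono hM ?_ _
    intro γ hγ hc
    refine hγ ⟨h, hh, h⁻¹ * κ γ, ?_, by simp⟩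
    by_contra hne
    exact hne hc
  · intro h hh
    refine (Ms.mono hM ?_ _).trans (hs s hs𝒮)
    intro γ hγ hc
    refine hγ ?_
    change h⁻¹ * κ γ ∈ A
    rw [hAdef]
    exact ⟨h⁻¹, Set.inv_mem_inv.mpr hh, κ γ, hc, rfl⟩
  · intro h hh
    refine (Ms.mono hM ?_ _).trans (hu u hu𝒰)
    intro γ hγ hc
    refine hγ ?_
    exact ⟨h⁻¹, hh, κ γ, hc, rfl⟩

end tgt

end Vale.Agent.P092.H584.TX
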